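import Vale.Agent.P263B6.Rows
import Vale.Agent.P263.FR.H663.Asm
import Vale.Agent.P263.TJ.CmpC

/-!
# P263, Arf invariant: the cup product is well defined and is computed by `Cc.cup 1`
-/

open CategoryTheory Simplicial

namespace Vale.Agent.P263A

open Vale.Agent.P263 Vale.Agent.P263.FR Vale.Agent.P263.E Vale.Agent.P263.G2 Vale.Agent.P263.TJ

variable {X : TopCat.{0}}

theorem cup_pi_pair {K : ChainComplex (ModuleCat.{0} (ZMod 2)) ℕ} {n : ℕ} (l : K.X n ⟶ T0.RF2)
    (h : K.d (n + 1) n ≫ l = 0) : K.homologyπ n ≫ T0.pair K l h = K.iCycles n ≫ l := by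
  rw [T0.pair, HomologicalComplex.homology_π_ι_assoc, HomologicalComplex.p_descOpcycles]

/-- the linear form of a cochain -/
noncomputable def lin (q : ℕ) (a : Cc (sing X)) : (Ch X).X q →ₗ[ZMod 2] ZMod 2 :=
  (T0.ev (TopCat.toSSet.obj X) (toS q a)).hom

/-- the linear form of a cocycle represents its class -/
theorem rep_cl (q : ℕ) (u : Cc (sing X)) (du : Cc.d u = 0) :
    Represents (lin q u) (FR.cl q u du) := fun z =>
  LinearMap.congr_fun (congrArg ModuleCat.Hom.hom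
    (cup_pi_pair (K := Ch X) (T0.ev (TopCat.toSSet.obj X) (toS q u))
      ((T0.cobd_eq_zero_iff _ _).1 (by rw [cobd_toS, du, toS_zero])))) z

theorem rep_unique {q : ℕ} {u : (Ch X).X q →ₗ[ZMod 2] ZMod 2} {x x' : Coh q X}
    (h : Represents u x) (h' : Represents u x') : x = x' := by
  ext y
  obtain ⟨z, rfl⟩ := (ModuleCat.epi_iff_surjective ((Ch X).homologyπ q)).1 inferInstance y
  exact (h z).trans (h' z).symm

theorem rep_d {q : ℕ} {u : (Ch X).X q →ₗ[ZMod 2] ZMod 2} {x : Coh q X} (h : Represents u x) :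
    (Ch X).d (q + 1) q ≫ (ModuleCat.ofHom u : (Ch X).X q ⟶ T0.RF2) = 0 := by
  ext b
  have h1 := h (((Ch X).toCycles (q + 1) q).hom b)
  have h2 : ((Ch X).homologyπ q).hom (((Ch X).toCycles (q + 1) q).hom b) = 0 :=
    LinearMap.congr_fun (congrArg ModuleCat.Hom.hom ((Ch X).toCycles_comp_homologyπ (q + 1) q)) b
  have h3 : ((Ch X).iCycles q).hom (((Ch X).toCycles (q + 1) q).hom b) =
      ((Ch X).d (q + 1) q).hom b :=
    LinearMap.congr_fun (congrArg ModuleCat.Hom.hom ((Ch X).toCycles_i (q + 1) q)) b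
  rw [h2, h3] at h1
  exact h1.symm.trans (map_zero x)

/-- a representing linear form comes from a homogeneous cocycle -/
theorem rep_exists {q : ℕ} {u : (Ch X).X q →ₗ[ZMod 2] ZMod 2} {x : Coh q X}
    (h : Represents u x) : ∃ (a : Cc (sing X)) (da : Cc.d a = 0), Cc.IsDeg q a ∧
      FR.cl q a da = x ∧ lin q a = u := by
  obtain ⟨c, hc⟩ : ∃ c, c = T0.unev (TopCat.toSSet.obj X)
    (ModuleCat.ofHom u : (Ch X).X q ⟶ T0.RF2) := ⟨_, rfl⟩
  have e : T0.ev (TopCat.toSSet.obj X) c = (ModuleCat.ofHom u : (Ch X).X q ⟶ T0.RF2) := by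
    rw [hc]
    exact T0.ev_unev _ _
  have h0 : T0.cobd (TopCat.toSSet.obj X) c = 0 :=
    (T0.cobd_eq_zero_iff _ _).2 (by rw [e]; exact rep_d h)
  have hd : Cc.d (ofS q c) = 0 := by
    apply toS_injective (isDeg_ofS q c).d (fun _ _ _ => rfl)
    rw [← cobd_toS, toS_ofS, h0]
    rfl
  have e' : lin q (ofS q c) = u :=
    (congrArg (fun c' => (T0.ev (TopCat.toSSet.obj X) c').hom) (toS_ofS q c)).trans
      (congrArg ModuleCat.Hom.hom e)
  refine ⟨ofS q c, hd, isDeg_ofS q c, rep_unique ?_ h, e'⟩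
  rw [← e']
  exact rep_cl q _ hd

theorem ev_face {n : ℕ} (σ : (TopCat.toSSet.obj X) _⦋n⦌) (j l : ℕ) (h : j + l ≤ n)
    (a : Cc (sing X)) : lin l a (face σ j l h) =
      toS l a ((TopCat.toSSet.obj X).map (SimplexCategory.subinterval j l h).op σ) :=
  congrFun (T0.unev_ev (TopCat.toSSet.obj X) (toS l a)) _

theorem toS_sub {n : ℕ} (σ : (TopCat.toSSet.obj X) _⦋n⦌) (j l : ℕ) (h : j + l ≤ n)
    (a : Cc (sing X)) {e : ℕ → ℕ} (he : Monotone e) (h' : ∀ x, e x = x + j) :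
    toS l a ((TopCat.toSSet.obj X).map (SimplexCategory.subinterval j l h).op σ) =
      a l ((sing X).map (TJ.cl l n e) ((ofSing X).app σ)) := by
  have e1 : SimplexCategory.subinterval j l h = G.hm (TJ.cl l n e) := by
    apply SimplexCategory.Hom.ext
    apply OrderHom.ext
    funext x
    apply Fin.ext
    have hx := x.2
    show x.1 + j = (TJ.cl l n e x).1
    rw [cl_val he, h']
    simp only [SimplexCategory.len_mk] at hx
    omega
  rw [e1]
  rfl

theorem map_sub_self {n : ℕ} (σ : (TopCat.toSSet.obj X) _⦋n⦌) (h : 0 + n ≤ n) :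
    (TopCat.toSSet.obj X).map (SimplexCategory.subinterval 0 n h).op σ = σ := by
  have e1 : SimplexCategory.subinterval 0 n h = 𝟙 _ := by
    apply SimplexCategory.Hom.ext
    apply OrderHom.ext
    funext x
    rfl
  rw [e1]
  simp

theorem toS_cup {p q n : ℕ} (h : p + q = n) {a b : Cc (sing X)} (ha : Cc.IsDeg p a)
    (σ : (TopCat.toSSet.obj X) _⦋n⦌) : toS n (Cc.cup 1 a b) σ =
      lin p a (face σ 0 p (by omega)) * lin q b (face σ p q h.le) := by
  rw [ev_face, ev_face, toS_sub σ 0 p _ a monotone_id (fun _ => rfl),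
    toS_sub σ p q _ b (strictMono_addr p).monotone (fun _ => rfl)]
  have hp : p ≤ n := by omega
  have hq : q = n - p := by omega
  subst hq
  exact cup_one_deg ha b hp _

theorem isCup_cl {p q n : ℕ} (h : p + q = n) {a b : Cc (sing X)} (ha : Cc.IsDeg p a)
    (da : Cc.d a = 0) (db : Cc.d b = 0) (dab : Cc.d (Cc.cup 1 a b) = 0) :
    IsCup h (FR.cl p a da) (FR.cl q b db) (FR.cl n (Cc.cup 1 a b) dab) := by
  refine ⟨_, _, _, rep_cl p a da, rep_cl q b db, rep_cl n _ dab, fun σ => ?_⟩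
  rw [ev_face, map_sub_self, toS_cup h ha]

theorem isCup_unique {p q n : ℕ} (h : p + q = n) {a b : Cc (sing X)} (ha : Cc.IsDeg p a)
    (hb : Cc.IsDeg q b) (da : Cc.d a = 0) (db : Cc.d b = 0) (dab : Cc.d (Cc.cup 1 a b) = 0)
    {w : Coh n X} (hw : IsCup h (FR.cl p a da) (FR.cl q b db) w) :
    w = FR.cl n (Cc.cup 1 a b) dab := by
  obtain ⟨u, v, t, hu, hv, ht, huv⟩ := hw
  obtain ⟨a', da', ha', ea, rfl⟩ := rep_exists hu
  obtain ⟨b', db', hb', eb, rfl⟩ := rep_exists hv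
  obtain ⟨c, dc, hc, rfl, rfl⟩ := rep_exists ht
  have e : c = Cc.cup 1 a' b' := by
    refine toS_injective hc (ha'.cup hb' (by omega)) ?_
    funext σ
    rw [toS_cup h ha', ← huv σ, ev_face, map_sub_self]
  subst e
  obtain ⟨s, hs⟩ := (cl_eq_iff da' da ha' ha).1 ea
  obtain ⟨r, hr⟩ := (cl_eq_iff db' db hb' hb).1 eb
  have h1 : FR.cl n (Cc.cup 1 a' b') dc = FR.cl n (Cc.cup 1 a b') (d_cup1_zero da db') :=
    (cl_eq_iff _ _ hc (ha.cup hb' (by omega))).2 ⟨_, cup1_coh_left db' hs⟩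
  rw [h1]
  exact (cl_eq_iff _ _ (ha.cup hb' (by omega)) (ha.cup hb (by omega))).2 ⟨_, cup1_coh_right da hr⟩

theorem cup_row : CUP := by
  intro X p q n h
  constructor
  · intro x y
    obtain ⟨a, da, ha, rfl⟩ := exists_cl x
    obtain ⟨b, db, hb, rfl⟩ := exists_cl y
    exact ⟨_, isCup_cl h ha da db (d_cup1_zero da db), fun w hw =>
      isCup_unique h ha hb da db _ hw⟩
  · intro a b ha hb da db dab
    exact isCup_unique h ha hb da db dab
      (Classical.epsilon_spec ⟨_, isCup_cl h ha da db dab⟩)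

end Vale.Agent.P263A
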