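import Vale.Agent.P263B15.Rows
import Vale.Agent.P263.FR.Base

/-!
# P263B: the class on the loop space
-/

open Topology Set OnePoint

namespace Vale.Agent.P263B70

open Vale.Agent.P263B15 Vale.Agent.P263 Vale.Agent.P263.S Vale.Agent.P263.E Vale.Agent.P263.G2
open Vale.Agent.P263.TJ Vale.Agent.P263.FR Vale.Agent.P263.T0
open Vale.Agent.P246.T (Ch bd push)

variable {X Z : Type} [TopologicalSpace X] [TopologicalSpace Z]

theorem face_eq (n : ℕ) (i : Fin (n + 2)) :
    Vale.Agent.P246.T.face (n + 1) i = dmap (dl n i) := by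
  have h : (i.succAbove : Fin (n + 1) → Fin (n + 2)) = dl n i := by
    funext x
    apply Fin.ext
    show _ = if x.1 < i.1 then x.1 else x.1 + 1
    rw [Fin.succAbove]
    by_cases hx : x.1 < i.1
    · rw [if_pos hx, if_pos (Fin.lt_def.2 hx)]
      rfl
    · rw [if_neg hx, if_neg fun h => hx (Fin.lt_def.1 h)]
      rfl
  apply ContinuousMap.ext
  intro t
  show stdSimplex.map i.succAbove t = stdSimplex.map (dl n i) t
  rw [h]

theorem fn_bd {p : ℕ} (v : Fn p X) (σ : C(G2.Dl (p + 1), X)) :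
    v (bd p (Finsupp.single σ 1)) =
      ∑ i ∈ Finset.range (p + 2), v (Finsupp.single (σ.comp (dmap (dl p i))) 1) := by
  rw [Vale.Agent.P246.T.bd, Finsupp.linearCombination_single, one_smul, map_sum, Finset.sum_range]
  refine Finset.sum_congr rfl fun i _ => ?_
  rw [face_eq]
  have h : ∀ τ : C(G2.Dl p, X), (Finsupp.single τ ((-1 : ℤ) ^ (i : ℕ)) : Ch p X) =
      ((-1 : ℤ) ^ (i : ℕ)) • Finsupp.single τ 1 := fun τ => by
    rw [Finsupp.smul_single, smul_eq_mul, mul_one]
  rw [h, _root_.map_smul]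
  rcases Nat.even_or_odd (i : ℕ) with he | he
  · rw [he.neg_one_pow, one_smul]
  · rw [he.neg_one_pow, neg_smul, one_smul]
    exact CharTwo.neg_eq _

/-- the additive function of a cochain -/
noncomputable def toFn (p : ℕ) (b : Cc (sing X)) : Fn p X :=
  Finsupp.linearCombination ℤ fun σ : C(G2.Dl p, X) => b p (ofC σ)

theorem toFn_single (p : ℕ) (b : Cc (sing X)) (σ : C(G2.Dl p, X)) :
    toFn p b (Finsupp.single σ 1) = b p (ofC σ) := by
  rw [toFn, Finsupp.linearCombination_single, one_smul]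

theorem isCoc_toFn (p : ℕ) {b : Cc (sing X)} (hb : Cc.d b = 0) : IsCoc (toFn p b) := by
  have h : (toFn p b).comp (bd p) = 0 := by
    refine Finsupp.lhom_ext' fun σ => LinearMap.ext_ring ?_
    show toFn p b (bd p (Finsupp.single σ 1)) = 0
    rw [fn_bd]
    have h1 := d_succ_apply b (X := sing X) (p := p) (ofC σ)
    rw [hb] at h1
    refine Eq.trans (Finset.sum_congr rfl fun i _ => toFn_single p b _) h1.symm
  exact fun c => LinearMap.congr_fun h c

/-- the cochain of an additive function -/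
noncomputable def ofFn (p : ℕ) (v : Fn p X) : Cc (sing X) := fun k σ =>
  if h : k = p then v (Finsupp.single (toC (h ▸ σ : (sing X).obj p)) 1) else 0

theorem ofFn_self (p : ℕ) (v : Fn p X) (σ : (sing X).obj p) :
    ofFn p v p σ = v (Finsupp.single (toC σ) 1) := dif_pos rfl

theorem isDeg_ofFn (p : ℕ) (v : Fn p X) : Cc.IsDeg p (ofFn p v) := fun _ h _ => dif_neg h

theorem d_ofFn (p : ℕ) {v : Fn p X} (hv : IsCoc v) : Cc.d (ofFn p v) = 0 := by
  funext k σ
  by_cases hk : k = p + 1
  · subst hk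
    rw [d_succ_apply]
    refine Eq.trans (Finset.sum_congr rfl fun i _ => ofFn_self p v _) ?_
    exact (fn_bd v (toC σ)).symm.trans (hv _)
  · exact (isDeg_ofFn p v).d k hk σ

/-- the evaluation of loops on the interval -/
noncomputable def evL (z₀ : Z) : SS.Map ((sing (Lp z₀)).prod (SN 1)) (sing Z) :=
  ⟨fun {p} z => ofC (⟨fun t : G2.Dl p => (toC z.1 t).1.1 (chiI (z.2 0) t),
      ContinuousEval.continuous_eval.comp ((continuous_subtype_val.comp
        (continuous_subtype_val.comp (toC z.1).continuous)).prodMk (chiI (z.2 0)).continuous)⟩ :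
      C(G2.Dl p, Z)), fun f z => by
    apply ContinuousMap.ext
    intro t
    exact congrArg (toC z.1 (dmap f t)).1.1 (DFunLike.congr_fun (chiI_comp (z.2 0) f) t)⟩

theorem evL_base (z₀ : Z) {p : ℕ} {z : ((sing (Lp z₀)).prod (SN 1)).obj p}
    (h : (bdX (sing (Lp z₀)) 1).mem z) (t : G2.Dl p) : toC ((evL z₀).app z) t = z₀ := by
  obtain ⟨i, h⟩ := h
  rw [Subsingleton.elim i 0] at h
  show (toC z.1 t).1.1 (chiI (z.2 0) t) = z₀
  rcases h with h | h
  · have h' : z.2 0 = c0 p := h
    rw [h', chiI_c0]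
    exact (toC z.1 t).1.2
  · have h' : z.2 0 = c1 p := h
    rw [h', chiI_c1]
    exact (toC z.1 t).2

/-- the interval collapsed to the circle -/
noncomputable def lp1 : C(unitInterval, T0.Sph 1) :=
  ⟨fun t => tup fun _ : Fin 1 => GB.loopU t, continuous_tup.comp
    (continuous_pi fun _ => GB.loopU.continuous)⟩

theorem lp1_zero : lp1 0 = ∞ := tup_of_eq_infty (i := 0) GB.loopE_zero

theorem lp1_one : lp1 1 = ∞ := tup_of_eq_infty (i := 0) GB.loopE_one

theorem cxC_one {p : ℕ} (τ : Fin 1 → Op p 1) (t : G2.Dl p) : cxC τ t = lp1 (chiI (τ 0) t) := by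
  rw [cxC_apply]
  show _ = tup _
  congr 1
  funext i
  rw [Subsingleton.elim i 0]

variable {P : Type} [TopologicalSpace P] [CompactSpace P] [T2Space P]

/-- the adjoint map -/
noncomputable def adjL (i : C(TT 1 P, Z)) : C(P, Lp (i ∞)) :=
  ⟨fun p => ⟨Vale.Agent.P263.AD.Freu.mkP (fun z : P × unitInterval => i (smP 1 P (lp1 z.2, z.1)))
      (by fun_prop) (fun p => by rw [lp1_zero, smP_infty]) p, by
        show i (smP 1 P (lp1 1, p)) = i ∞
        rw [lp1_one, smP_infty]⟩,
    Continuous.subtype_mk (ContinuousMap.continuous _) _⟩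

theorem evL_adjL (i : C(TT 1 P, Z)) :
    (evL (i ∞)).comp (SS.pair ((singMap (adjL i)).comp (SS.fst (sing P) (SN 1)))
      (SS.snd (sing P) (SN 1))) = (singMap i).comp (muT 1 P) := by
  apply SS.Map.ext
  intro p z
  apply ContinuousMap.ext
  intro t
  exact congrArg (fun w => i (smP 1 P (w, toC z.1 t))) (cxC_one z.2 t).symm

theorem loopy : LOOPY := by
  intro P _ _ _ q x hq hx
  refine ⟨toFn (q + 1) (jR 0 hq hx).b, isCoc_toFn _ (jR 0 hq hx).d_b, fun Z _ i v hv huv => ?_⟩
  have h1 : Cc.pull (singMap i) (ofFn (q + 1) v) = (jR 0 hq hx).b := by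
    funext k σ
    by_cases hk : k = q + 1
    · subst hk
      rw [pull_apply, ofFn_self]
      have h2 := huv (Finsupp.single (toC σ) 1)
      rw [toFn_single, Vale.Agent.P246.T.push, Finsupp.lmapDomain_apply,
        Finsupp.mapDomain_single] at h2
      exact h2
    · rw [pull_apply, isDeg_ofFn _ _ k hk, jR_deg_b hq hx k hk]
  have h3 : Vn (bdX (sing (Lp (i ∞))) 1) (Cc.pull (evL (i ∞)) (ofFn (q + 1) v)) := by
    intro p z hz
    have h4 : (evL (i ∞)).app z = (singMap i).app (ofC (ContinuousMap.const (G2.Dl p) ∞)) :=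
      ContinuousMap.ext fun t => evL_base _ hz t
    rw [pull_apply, h4, ← pull_apply (singMap i) (ofFn (q + 1) v), h1]
    exact (jR 0 hq hx).vn_b p _ fun _ => rfl
  refine ⟨adjL i, DstN 1 (Cc.pull (evL (i ∞)) (ofFn (q + 1) v)), fun p hp σ => ?_, ?_, ?_⟩
  · refine congrFun (DstN_degree 1 ?_) σ
    funext z
    exact isDeg_ofFn _ v (p + 1) (by omega) _
  · rw [← DstN_d h3, ← pull_d, d_ofFn _ hv, pull_zero, DstN_zero]
  · rw [← DstN_pull]
    have h5 : Cc.pull (SS.pair ((singMap (adjL i)).comp (SS.fst (sing P) (SN 1)))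
        (SS.snd (sing P) (SN 1))) (Cc.pull (evL (i ∞)) (ofFn (q + 1) v)) =
        Cc.pull (muT 1 P) (jR 0 hq hx).b := by
      rw [← h1]
      exact congrArg (fun m => Cc.pull m (ofFn (q + 1) v)) (evL_adjL i)
    rw [h5]
    exact DstN_jR hq hx

end Vale.Agent.P263B70
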